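import Vale.Agent.P204.Defs
import Vale.Agent.P204.Top

open scoped Manifold ContDiff
open Vale.Agent.P204

/-- Donaldson's tamed-to-compatible conjecture. -/
theorem Vale.Agent.Results.P204.Donaldson.result
    {X : Type*} [TopologicalSpace X] [T2Space X] [CompactSpace X] [ConnectedSpace X]
    [ChartedSpace (EuclideanSpace ℝ (Fin 4)) X] [IsManifold (𝓡 4) ∞ X]
    (J : EndField (EuclideanSpace ℝ (Fin 4)) X) (hJ : IsAlmostComplex J)
    (σ : BilField (EuclideanSpace ℝ (Fin 4)) X) (hσ : IsSymplectic σ) (ht : Tames σ J) :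
    ∃ τ : BilField (EuclideanSpace ℝ (Fin 4)) X, IsSymplectic τ ∧ Compatible τ J :=
  donaldson hJ hσ ht
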